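import Crest.Agent.N228.Gr.Iso
import Crest.Agent.N222.J.LinA_Mg
import Crest.Agent.N222.B.Dbl

/-!
# Row 228, graft: local forms, IMS gluing, weights (helper90)
-/

set_option autoImplicit false
set_option linter.unusedSectionVars false
open MeasureTheory Set Filter Topology Function Metric
open scoped ContDiff
open Crest.Agent.N222 Crest.Agent.N222.Imm

noncomputable section

namespace Crest.Agent.N228.Gr

variable {d : ℕ} {ι κ : Type} [Fintype ι] [DecidableEq ι] [Fintype κ] [DecidableEq κ] {X Y : Type}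
  [TopologicalSpace X] [T2Space X] [SecondCountableTopology X] [MeasurableSpace X] [BorelSpace X]
  [TopologicalSpace Y] [T2Space Y] [SecondCountableTopology Y] [MeasurableSpace Y] [BorelSpace Y]
  {M : Imm d ι X} {N : Imm d κ Y} {U : Set X} {V V' F z : X → ℝ}

/-- the density of the form -/
def fd (M : Imm d ι X) (V z : X → ℝ) (p : X) : ℝ :=
  4 * M.pre.gam z z p + (M.pre.scal p - V p) * z p ^ 2

/-- `-4 Δ + R ≥ V` for test functions supported in `U` -/
def FormOn (M : Imm d ι X) (U : Set X) (V : X → ℝ) : Prop :=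
  ∀ z, M.Tst z → tsupport z ⊆ U → 0 ≤ ∫ p, fd M V z p ∂M.mu

theorem formOn_univ : FormOn M univ V ↔ M.Form V :=
  ⟨fun h z hz => h z hz (subset_univ _), fun h z hz _ => h z hz⟩

theorem formOn_of_form (h : M.Form V) (U : Set X) : FormOn M U V := fun z hz _ => h z hz

theorem fd_zero {p : X} (hp : p ∉ tsupport z) : fd M V z p = 0 := by
  simp [fd, Pc.gam_eq_zero z hp, image_eq_zero_of_notMem_tsupport hp]

theorem integrable_fd (hV : Continuous V) (hz : M.Tst z) : Integrable (fd M V z) M.mu :=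
  integrable_of_support hz.cs ((continuous_const.mul (hz.sm.gam hz.sm).continuous).add
    ((M.sm_scal.continuous.sub hV).mul (hz.sm.continuous.pow 2))) fun _ => fd_zero

theorem FormOn.mono (h : FormOn M U V) {U' : Set X} (hU : U' ⊆ U) (hV : Continuous V)
    (hV' : Continuous V') (hle : ∀ p ∈ U', V' p ≤ V p) : FormOn M U' V' := fun z hz hs =>
  (h z hz (hs.trans hU)).trans <| integral_mono (integrable_fd hV hz) (integrable_fd hV' hz)
    fun p => by
      by_cases hp : p ∈ tsupport z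
      · have := mul_le_mul_of_nonneg_right (hle p (hs hp)) (sq_nonneg (z p))
        simp only [fd]
        linarith
      · rw [fd_zero hp, fd_zero hp]

/-- a weight gives the form -/
theorem form_EF (hF : M.Sm F) : M.Form (M.pre.EF F) := fun z hz =>
  drift d ι X M (fun a => M.pre.D a F) _ hF.D (tan_D F) hF.EF z hz fun _ _ => le_rfl

theorem formOn_of_EF (hF : M.Sm F) (hV : Continuous V) (h : ∀ p ∈ U, V p ≤ M.pre.EF F p) :
    FormOn M U V := (formOn_of_form (form_EF hF) U).mono subset_rfl hF.EF.continuous hV h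

/-- transport along a local isometry -/
theorem FormOn.transport {e : OpenPartialHomeomorph X Y} (L : E ι →ₗᵢ[ℝ] E κ) (c : E κ)
    (hx : ∀ p ∈ e.source, N.x (e p) = L (M.x p) + c) (h : FormOn M e.source V) {W : Y → ℝ}
    (hW : ∀ p ∈ e.source, W (e p) = V p) : FormOn N e.target W := by
  intro z hz hs
  have hx' : ∀ y ∈ e.symm.source, (amap M L c).x (e.symm y) = N.x y := fun y hy => by
    rw [← e.right_inv hy, hx _ (e.map_target hy), e.right_inv hy]
    rfl
  have h1 : (amap M L c).Tst (push e.symm z) := hz.push hx' hs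
  have h2 : tsupport (push e.symm z) ⊆ e.source := by
    rw [tsupport_push hz.cs hs]
    rintro _ ⟨y, hy, rfl⟩
    exact e.map_target (hs hy)
  refine (h _ ⟨h1.sm, h1.cs⟩ h2).trans_eq ?_
  rw [← setIntegral_eq_integral_of_forall_compl_eq_zero (s := e.source)
    fun p hp => fd_zero fun h' => hp (h2 h'),
    ← setIntegral_eq_integral_of_forall_compl_eq_zero (s := e.target)
    fun p hp => fd_zero fun h' => hp (hs h'), setIntegral_iso (M := amap M L c) hx, amap_mu]
  refine setIntegral_congr_fun e.open_source.measurableSet fun p hp => ?_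
  have hl : LI M N e p := ⟨L, c, by
    filter_upwards [e.open_source.mem_nhds hp] with q hq
    exact ⟨e.continuousAt hq, hx q hq⟩⟩
  have h3 : push e.symm z =ᶠ[𝓝 p] fun q => z (e q) := by
    filter_upwards [e.open_source.mem_nhds hp] with q hq
    exact indicator_of_mem hq _
  simp only [fd]
  rw [hl.gam' h3 h3, hl.scal, h3.self_of_nhds, hW p hp]

/-- two immersions of the same space which are isometric on `U` -/
theorem FormOn.of_eq {M' : Imm d κ X} (hU : IsOpen U) (L : E ι →ₗᵢ[ℝ] E κ) (c : E κ)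
    (hx : ∀ p ∈ U, M'.x p = L (M.x p) + c) (h : FormOn M U V) : FormOn M' U V :=
  FormOn.transport (e := OpenPartialHomeomorph.ofSet U hU) L c hx h fun _ _ => rfl

/-- **IMS** -/
theorem ims {a b V1 V2 : X → ℝ} {U1 U2 : Set X} (ha : M.Sm a) (hb : M.Sm b)
    (hab : ∀ p, a p ^ 2 + b p ^ 2 = 1) (h1 : FormOn M U1 V1) (h2 : FormOn M U2 V2)
    (s1 : tsupport a ⊆ U1) (s2 : tsupport b ⊆ U2) (c1 : Continuous V1) (c2 : Continuous V2) :
    M.Form fun p => a p ^ 2 * V1 p + b p ^ 2 * V2 p - 4 * (M.pre.gam a a p + M.pre.gam b b p) := by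
  intro z hz
  have t1 : M.Tst fun p => a p * z p := ⟨ha.mul hz.sm, hz.cs.mul_left⟩
  have t2 : M.Tst fun p => b p * z p := ⟨hb.mul hz.sm, hz.cs.mul_left⟩
  refine (add_nonneg (h1 _ t1 (tsupport_mul_subset_left.trans s1))
    (h2 _ t2 (tsupport_mul_subset_left.trans s2))).trans_eq ?_
  rw [← integral_add (integrable_fd c1 t1) (integrable_fd c2 t2)]
  refine integral_congr_ae (.of_forall fun p => ?_)
  have e : ∀ c, a p * M.pre.D c a p + b p * M.pre.D c b p = 0 := fun c => by
    have h3 := D_add ((ha.pow 2).diffAt p) ((hb.pow 2).diffAt p) c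
    simp only [hab, D_const, Pc.D_sq ha, Pc.D_sq hb] at h3
    linarith
  have e2 : M.pre.gam (fun p => a p * z p) (fun p => a p * z p) p +
      M.pre.gam (fun p => b p * z p) (fun p => b p * z p) p =
      M.pre.gam z z p + (M.pre.gam a a p + M.pre.gam b b p) * z p ^ 2 := by
    simp only [gam_apply, D_mul (ha.diffAt p) (hz.sm.diffAt p), D_mul (hb.diffAt p) (hz.sm.diffAt p),
      ← Finset.sum_add_distrib, Finset.sum_mul]
    refine Finset.sum_congr rfl fun c _ => ?_
    linear_combination M.pre.D c z p ^ 2 * hab p + 2 * z p * M.pre.D c z p * e c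
  simp only [fd]
  linear_combination 4 * e2 + M.pre.scal p * z p ^ 2 * hab p

/-- IMS with a cut-off `θ` : `U1 ⊇ supp (1 - θ)`, `U2 ⊇ supp θ` -/
theorem ims_cut {θ V1 V2 : X → ℝ} {U1 U2 : Set X} (hθ : M.Sm θ) (h1 : FormOn M U1 V1)
    (h2 : FormOn M U2 V2) (s1 : tsupport (fun p => 1 - θ p) ⊆ U1) (s2 : tsupport θ ⊆ U2)
    (c1 : Continuous V1) (c2 : Continuous V2) :
    M.Form fun p => Real.cos (Real.pi / 2 * θ p) ^ 2 * V1 p +
      Real.sin (Real.pi / 2 * θ p) ^ 2 * V2 p - Real.pi ^ 2 * M.pre.gam θ θ p := by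
  have hs : M.Sm fun p => Real.pi / 2 * θ p := (sm_const _).mul hθ
  have := ims (hs.comp Real.contDiff_cos) (hs.comp Real.contDiff_sin)
    (fun p => Real.cos_sq_add_sin_sq _) h1 h2
    ((closure_mono (support_subset_iff.2 fun p hp (h : 1 - θ p = 0) =>
      hp (by rw [← sub_eq_zero.1 h]; simp))).trans s1)
    ((closure_mono (support_subset_iff.2 fun p hp (h : θ p = 0) => hp (by simp [h]))).trans s2) c1 c2
  convert this using 3 with p
  simp only [gam_apply, D_comp (hs.diffAt p) (Real.hasDerivAt_cos _),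
    D_comp (hs.diffAt p) (Real.hasDerivAt_sin _), D_const_mul _ (hθ.diffAt p),
    ← Finset.sum_add_distrib, Finset.mul_sum]
  refine Finset.sum_congr rfl fun c _ => ?_
  linear_combination (-(Real.pi ^ 2 * M.pre.D c θ p ^ 2)) * Real.cos_sq_add_sin_sq (Real.pi / 2 * θ p)

/-- a positive solution from a lower bound for a form -/
theorem lin0 [CompactSpace X] {q : X → ℝ} (hq : M.Sm q)
    (h : ∀ z, M.Sm z → 0 ≤ ∫ p, (M.pre.gam z z p + q p * z p ^ 2) ∂M.mu) {δ : ℝ} (hδ : 0 < δ) :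
    ∃ F, M.Sm F ∧ ∀ p, M.pre.scal p - 4 * q p - 4 * δ ≤ M.pre.EF F p := by
  obtain ⟨y, hy, hyq, hy0⟩ := linA d ι X M inferInstance (fun p => q p + δ) δ
    (hq.add (sm_const δ)) hδ (fun z hz => by
      have h3 : ∀ p, M.pre.gam z z p + (q p + δ) * z p ^ 2 =
          (M.pre.gam z z p + q p * z p ^ 2) + δ * z p ^ 2 := fun p => by ring
      simp only [h3]
      rw [integral_add (Cl.int ((hz.gam hz).add (hq.mul (hz.pow 2))))
        ((Cl.int (hz.pow 2)).const_mul δ), integral_const_mul]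
      linarith [h z hz]) (fun _ => 1) (sm_const 1)
  have hy0 := hy0 fun _ => one_pos
  refine ⟨fun p => 2 * Real.log (y p), (sm_const 2).mul (hy.log fun p => (hy0 p).ne'), fun p => ?_⟩
  have h3 : M.pre.lap y p / y p ≤ q p + δ := by
    rw [div_le_iff₀ (hy0 _)]
    linarith [hyq p]
  rw [Cl.EF_log hy hy0]
  linarith

theorem exists_sm_le (M : Imm d ι X) (hV : Continuous V) {δ : ℝ} (hδ : 0 < δ) :
    ∃ W, M.Sm W ∧ ∀ p, V p - δ ≤ W p ∧ W p ≤ V p := by
  obtain ⟨W, hW, h⟩ := M.exists_sm_approx (f := fun p => V p - δ / 2) (hV.sub continuous_const)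
    (continuous_const (y := δ / 2)) fun _ => half_pos hδ
  exact ⟨W, hW, fun p => by constructor <;> linarith [abs_lt.1 (h p)]⟩

/-- **LIN**: on a closed manifold the form gives a weight -/
theorem lin [CompactSpace X] (hV : Continuous V) (h : M.Form V) {δ : ℝ} (hδ : 0 < δ) :
    ∃ F, M.Sm F ∧ ∀ p, V p - δ ≤ M.pre.EF F p := by
  obtain ⟨W, hW, hWV⟩ := exists_sm_le M hV (half_pos hδ)
  have h1 := (formOn_of_form h univ).mono subset_rfl hV hW.continuous fun p _ => (hWV p).2
  obtain ⟨F, hF, h2⟩ := lin0 (q := fun p => (M.pre.scal p - W p) / 4)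
    ((M.sm_scal.sub hW).div (sm_const 4) fun _ => by norm_num) (fun z hz => by
      have h3 := h1 z ⟨hz, Cl.hcs z⟩ (subset_univ _)
      have h4 : ∀ p, fd M W z p =
          4 * (M.pre.gam z z p + (M.pre.scal p - W p) / 4 * z p ^ 2) := fun p => by
        simp only [fd]; ring
      simp only [h4, integral_const_mul] at h3
      linarith) (δ := δ / 8) (by positivity)
  exact ⟨F, hF, fun p => by linarith [h2 p, (hWV p).1]⟩

/-- **closing up**: a compact part lies in a closed manifold with a weight -/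
theorem close_up (hV : Continuous V) (h : M.Form V) {K : Set X} (hK : IsCompact K) {δ : ℝ}
    (hδ : 0 < δ) : ∃ (Y : Type) (_ : TopologicalSpace Y) (_ : T2Space Y)
      (_ : SecondCountableTopology Y) (_ : MeasurableSpace Y) (_ : BorelSpace Y) (_ : CompactSpace Y)
      (N : Imm d (Option ι) Y) (e : OpenPartialHomeomorph X Y) (c : ℝ) (F : Y → ℝ),
      K ⊆ e.source ∧ (∀ p ∈ e.source, N.x (e p) = up c (M.x p)) ∧ N.Sm F ∧
      ∀ p ∈ e.source, V p - δ ≤ N.pre.EF F (e p) := by
  obtain ⟨Y, _, _, _, _, _, _, N, e, c, hKe, hx⟩ := dbl d ι X M K hK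
  obtain ⟨W, hW, hWV⟩ := exists_sm_le M hV (half_pos hδ)
  have h1 := formOn_univ.1
    ((formOn_of_form h univ).mono subset_rfl hV hW.continuous fun p _ => (hWV p).2)
  have h' : (M.pad c).Form W := fun z hz => by
    rw [M.pad_gam, M.pad_scal, M.pad_mu]
    exact h1 z ⟨hz.sm, hz.cs⟩
  obtain ⟨χ, hχ, hs, h01, h1⟩ := (M.pad c).exists_bump hK e.open_source hKe
  have hw := hχ.push (N := N) hx hs
  have hV1 : N.Sm (push e fun p => χ p ^ 2 * W p) := by
    have := (Tst.push (M := M.pad c) (N := N) hx ⟨hχ.sm.mul (hχ.sm.mul hW), hχ.cs.mul_right⟩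
      (tsupport_mul_subset_left.trans hs)).sm
    simpa only [← mul_assoc, ← sq] using this
  have hw1 : ∀ y, push e χ y ^ 2 ≤ 1 := fun y => by
    by_cases hy : y ∈ e.target
    · rw [push, indicator_of_mem hy]
      exact pow_le_one₀ (h01 _).1 (h01 _).2
    · simp [push, indicator_of_notMem hy]
  obtain ⟨F, hF, h2⟩ := lin0 (Cl.sm_q0 hw.sm hV1)
    (fun z hz => Cl.form_Y hw.sm hV1 hz hw1 (Cl.transfer hx h' hχ hs hz)) (δ := δ / 8)
    (by positivity)
  refine ⟨Y, _, ‹_›, ‹_›, _, ‹_›, ‹_›, N, e.restrOpen (interior {p | χ p = 1}) isOpen_interior, c, F,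
    fun p hp => ⟨hKe hp, mem_interior_iff_mem_nhds.2 (eventually_nhdsSet_iff_forall.1 h1 p hp)⟩,
    fun p hp => hx p hp.1, hF, fun p hp => ?_⟩
  have hl := loc_of_mem (M := M.pad c) hx hp.1
  have hp1 : ∀ᶠ p' in 𝓝 p, χ p' = 1 := mem_interior_iff_mem_nhds.1 hp.2
  have e1 : (fun p' => push e χ (e p')) =ᶠ[𝓝 p] fun _ => 1 := by
    filter_upwards [e.open_source.mem_nhds hp.1, hp1] with p' hp' h1'
    rw [push_apply _ hp', h1']
  have e2 : (fun p' => push e χ (e p') ^ 2) =ᶠ[𝓝 p] fun _ => 1 :=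
    e1.mono fun p' h' => by simp only at h' ⊢; rw [h', one_pow]
  have h3 := h2 (e p)
  rw [Cl.q0, ← hl.gam_iso, ← hl.lap_iso, gam_congr e1 e1, lap_congr e2, lap_const,
    push_apply _ hp.1, push_apply _ hp.1, hp1.self_of_nhds] at h3
  simp only [gam_apply, D_const, mul_zero, Finset.sum_const_zero] at h3
  change _ ≤ N.pre.EF F (e p)
  linarith [(hWV p).1]

/-- `E(F)` is concave in `F` -/
theorem EF_concave {α : Type} (s : Finset α) {ρ : α → ℝ} {F : α → X → ℝ} (h0 : ∀ i ∈ s, 0 ≤ ρ i)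
    (h1 : ∑ i ∈ s, ρ i = 1) (hF : ∀ i, M.Sm (F i)) (p : X) :
    ∑ i ∈ s, ρ i * M.pre.EF (F i) p ≤ M.pre.EF (fun q => ∑ i ∈ s, ρ i * F i q) p := by
  have hD : ∀ {F : α → X → ℝ}, (∀ i, M.Sm (F i)) → ∀ a, M.pre.D a (fun q => ∑ i ∈ s, ρ i * F i q) =
      fun q => ∑ i ∈ s, ρ i * M.pre.D a (F i) q := fun hF a => funext fun q => by
    rw [D_sum _ fun i _ => ((sm_const _).mul (hF i)).diffAt q]
    exact Finset.sum_congr rfl fun i _ => D_const_mul _ ((hF i).diffAt q) a
  have h2 : ∀ a, (∑ i ∈ s, ρ i * M.pre.D a (F i) p) * (∑ i ∈ s, ρ i * M.pre.D a (F i) p) ≤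
      ∑ i ∈ s, ρ i * (M.pre.D a (F i) p * M.pre.D a (F i) p) := fun a => by
    have := (Even.convexOn_pow (𝕜 := ℝ) even_two).map_sum_le h0 h1
      (p := fun i => M.pre.D a (F i) p) fun _ _ => mem_univ _
    simpa only [smul_eq_mul, sq] using this
  have h3 := Finset.sum_le_sum fun a (_ : a ∈ Finset.univ) => h2 a
  rw [Finset.sum_comm] at h3
  simp only [EF_apply, lap_apply, gam_apply, hD hF, hD fun i => (hF i).D _, mul_sub,
    Finset.sum_sub_distrib, ← Finset.sum_mul, h1, one_mul]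
  simp only [Finset.mul_sum] at h3 ⊢
  rw [Finset.sum_comm (s := Finset.univ) (t := s)]
  have h4 : ∑ i ∈ s, ∑ a, ρ i * (2 * M.pre.D a (M.pre.D a (F i)) p) =
      ∑ i ∈ s, ∑ a, 2 * (ρ i * M.pre.D a (M.pre.D a (F i)) p) :=
    Finset.sum_congr rfl fun i _ => Finset.sum_congr rfl fun a _ => by ring
  linarith

end Crest.Agent.N228.Gr

end
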