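import Crest.Agent.N222.F.Coord
import Crest.Agent.N222.F.Res
import Crest.Agent.N222.B.Defs

/-!
# Row 228, graft: isometries of the ambient space, cylinders (helper90)

`amap M L c` : the immersion `L x + c`.  `LI M M' j q` : `j` is a local isometry near `q`, the
ambient spaces may differ.  `cyl N` : the cylinder over `N`.
-/

set_option autoImplicit false
set_option linter.unusedSectionVars false
open MeasureTheory Set Filter Topology Function Metric
open scoped ContDiff InnerProductSpace RealInnerProductSpace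
open Crest.Agent.N222

noncomputable section

namespace Crest.Agent.N228.Gr

variable {d : ℕ} {ι κ : Type} [Fintype ι] [Fintype κ] {X Y : Type} [TopologicalSpace X]
  [TopologicalSpace Y]

theorem fderiv_iso (L : E ι →ₗᵢ[ℝ] E κ) (c : E κ) (φ : E (Fin d) → E ι) (z : E (Fin d)) :
    fderiv ℝ (fun y => L (φ y) + c) z = L.toContinuousLinearMap ∘L fderiv ℝ φ z := by
  by_cases h : DifferentiableAt ℝ φ z
  · exact ((L.toContinuousLinearMap.hasFDerivAt.comp z h.hasFDerivAt).add_const c).fderiv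
  · have h' : ¬DifferentiableAt ℝ (fun y => L (φ y) + c) z := fun h' => h <| by
      have := (ContinuousLinearMap.adjoint L.toContinuousLinearMap).differentiableAt.comp z
        (h'.sub_const c)
      simpa only [comp_def, add_sub_cancel_right, adjoint_isometry_apply] using this
    rw [fderiv_zero_of_not_differentiableAt h, fderiv_zero_of_not_differentiableAt h',
      ContinuousLinearMap.comp_zero]

theorem gram_iso (L : E ι →ₗᵢ[ℝ] E κ) (c : E κ) (φ : E (Fin d) → E ι) :
    gram (fun y => L (φ y) + c) = gram φ := by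
  funext z
  ext i j
  simp only [gram, fderiv_iso, Matrix.of_apply, ContinuousLinearMap.comp_apply,
    LinearIsometry.coe_toContinuousLinearMap, L.inner_map_map]

theorem isChart_iso (L : E ι →ₗᵢ[ℝ] E κ) (c : E κ) {x : X → E ι}
    {e : OpenPartialHomeomorph X (E (Fin d))} (he : IsChart x e) :
    IsChart (fun p => L (x p) + c) e :=
  ⟨(L.toContinuousLinearMap.contDiff.comp_contDiffOn he.sm).add contDiffOn_const, fun z hz => by
    rw [show (fun p => L (x p) + c) ∘ e.symm = fun y => L ((x ∘ e.symm) y) + c from rfl,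
      fderiv_iso, ContinuousLinearMap.coe_comp]
    exact L.injective.comp (he.inj z hz)⟩

/-- the immersion `L x + c` -/
def amap (M : Imm d ι X) (L : E ι →ₗᵢ[ℝ] E κ) (c : E κ) : Imm d κ X :=
  ⟨fun p => L (M.x p) + c, M.ch, M.mem, fun p => isChart_iso L c (M.isChart p)⟩

section Amap

variable (M : Imm d ι X) (L : E ι →ₗᵢ[ℝ] E κ) (c : E κ)

theorem amap_gram (p : X) :
    gram ((amap M L c).x ∘ (M.ch p).symm) = gram (M.x ∘ (M.ch p).symm) := gram_iso L c _

theorem amap_mu [T2Space X] [SecondCountableTopology X] [MeasurableSpace X] [BorelSpace X] :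
    (amap M L c).mu = M.mu := by
  have h : ∀ p, chartMeas (amap M L c).x ((amap M L c).ch p) = chartMeas M.x (M.ch p) := fun p => by
    unfold chartMeas
    simp only [jac_eq_sqrt_det]
    rw [← amap_gram M L c p]
    rfl
  exact (Imm.eq_mu fun p => ⟨M.ch p, (amap M L c).isChart p, M.mem p,
    (Imm.mu_restrict (M.isChart p)).trans (h p).symm⟩).symm

variable [DecidableEq ι] [DecidableEq κ]

theorem amap_gam (f g : X → ℝ) : (amap M L c).pre.gam f g = M.pre.gam f g := funext fun p => by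
  rw [Imm.gam_coord ((amap M L c).isChart p) (M.mem p), Imm.gam_coord (M.isChart p) (M.mem p),
    ← amap_gram M L c p]
  rfl

theorem amap_scal : (amap M L c).pre.scal = M.pre.scal := funext fun p => by
  rw [Imm.scal_coord ((amap M L c).isChart p) (M.mem p), Imm.scal_coord (M.isChart p) (M.mem p),
    ← amap_gram M L c p]
  rfl



end Amap

/-- `j` is an isometry near `q` -/
def LI (M : Imm d ι X) (M' : Imm d κ Y) (j : X → Y) (q : X) : Prop :=
  ∃ (L : E ι →ₗᵢ[ℝ] E κ) (c : E κ), ∀ᶠ q' in 𝓝 q, ContinuousAt j q' ∧ M'.x (j q') = L (M.x q') + c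

namespace LI

variable {M : Imm d ι X} {M' : Imm d κ Y} {j : X → Y} {q : X} (h : LI M M' j q)

include h

theorem loc : ∃ (L : E ι →ₗᵢ[ℝ] E κ) (c : E κ), Loc (amap M L c) M' j q := by
  obtain ⟨L, c, h⟩ := h
  exact ⟨L, c, h.mono fun _ h' => ⟨h'.1, h'.2.symm⟩⟩

theorem contDiffAt {F : Type} [NormedAddCommGroup F] [NormedSpace ℝ F] {f : Y → F} (hf : M'.Sm f) :
    ContDiffAt ℝ ∞ ((fun p => f (j p)) ∘ (M.ch q).symm) (M.ch q q) := by
  obtain ⟨L, c, h⟩ := h.loc
  exact h.contDiffAt hf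

variable [DecidableEq ι] [DecidableEq κ]

theorem gam (f g : Y → ℝ) :
    M.pre.gam (fun p => f (j p)) (fun p => g (j p)) q = M'.pre.gam f g (j q) := by
  obtain ⟨L, c, h⟩ := h.loc
  rw [← h.gam_iso, amap_gam]

theorem scal : M.pre.scal q = M'.pre.scal (j q) := by
  obtain ⟨L, c, h⟩ := h.loc
  rw [← h.scal_iso, amap_scal]

theorem lap {f : Y → ℝ} (hf : M'.Sm f) : M.pre.lap (fun p => f (j p)) q = M'.pre.lap f (j q) := by
  have h1 : ContDiffAt ℝ 2 ((fun p => f (j p)) ∘ (M.ch q).symm) (M.ch q q) :=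
    (h.contDiffAt hf).of_le (by norm_cast)
  obtain ⟨L, c, h⟩ := h.loc
  rw [← h.lap_iso, Imm.lap_coord ((amap M L c).isChart q) (M.mem q) h1,
    Imm.lap_coord (M.isChart q) (M.mem q) h1, ← amap_gram M L c q]
  rfl

theorem EF {F : Y → ℝ} (hF : M'.Sm F) : M.pre.EF (fun p => F (j p)) q = M'.pre.EF F (j q) := by
  rw [Imm.EF_apply, Imm.EF_apply, h.scal, h.lap hF, h.gam]

/-- version with germs -/
theorem EF' {F : X → ℝ} {F' : Y → ℝ} (hF : M'.Sm F') (e : F =ᶠ[𝓝 q] fun p => F' (j p)) :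
    M.pre.EF F q = M'.pre.EF F' (j q) := by
  rw [← h.EF hF, Imm.EF_apply, Imm.EF_apply, Imm.lap_congr e, Imm.gam_congr e e]

theorem gam' {f g : X → ℝ} {f' g' : Y → ℝ} (e : f =ᶠ[𝓝 q] fun p => f' (j p))
    (e' : g =ᶠ[𝓝 q] fun p => g' (j p)) : M.pre.gam f g q = M'.pre.gam f' g' (j q) := by
  rw [← h.gam, Imm.gam_congr e e']

end LI

/-! ### cylinders -/

theorem fderiv_prodChart {x : X → E ι} {e : OpenPartialHomeomorph X (E (Fin d))} (he : IsChart x e)
    {z : E (Fin (d + 1))} (hz : z ∈ (prodChart e).target) :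
    fderiv ℝ ((fun q : X × ℝ => up q.2 (x q.1)) ∘ (prodChart e).symm) z =
      upL ι ∘L (EuclideanSpace.proj (0 : Fin (d + 1)) : E (Fin (d + 1)) →L[ℝ] ℝ).prod
        (fderiv ℝ (x ∘ e.symm) (tail0 z) ∘L tailL d) :=
  ((upL ι).hasFDerivAt.comp z ((EuclideanSpace.proj (0 : Fin (d + 1)) :
    E (Fin (d + 1)) →L[ℝ] ℝ).hasFDerivAt.prodMk
      ((he.hasFDerivAt hz).comp z (tailL d).hasFDerivAt))).fderiv

theorem isChart_prod {x : X → E ι} {e : OpenPartialHomeomorph X (E (Fin d))} (he : IsChart x e) :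
    IsChart (fun q : X × ℝ => up q.2 (x q.1)) (prodChart e) := by
  refine ⟨contDiff_up.comp_contDiffOn ((EuclideanSpace.proj (0 : Fin (d + 1)) :
    E (Fin (d + 1)) →L[ℝ] ℝ).contDiff.contDiffOn.prodMk
    (he.sm.comp contDiff_tail0.contDiffOn fun _ h => h)), fun z hz v w h => ?_⟩
  rw [fderiv_prodChart he hz] at h
  have h1 : v 0 = w 0 := congrArg (fun y : E (Option ι) => y none) h
  have h2 : tail0 v = tail0 w := he.inj _ hz (congrArg down h)
  rw [← cons0_tail0 v, h1, h2, cons0_tail0]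

/-- the cylinder -/
def cyl (N : Imm d ι X) : Imm (d + 1) (Option ι) (X × ℝ) :=
  ⟨fun q => up q.2 (N.x q.1), fun q => prodChart (N.ch q.1), fun q => N.mem q.1,
    fun q => isChart_prod (N.isChart q.1)⟩

section Cyl

variable (N : Imm d ι X) [DecidableEq ι]

theorem cyl_hom : (∀ (f : X → ℝ) q a, (cyl N).pre.D (some a) (fun q => f q.1) q = N.pre.D a f q.1) ∧
    (∀ (f : X → ℝ) q, (cyl N).pre.D none (fun q => f q.1) q = 0) ∧
    ∀ q c, (cyl N).pre.D c (fun q => q.2) q = (ee c : E (Option ι)) none := by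
  obtain ⟨N', h1, -, h3, h4⟩ := N.exists_prodR
  have hl : ∀ q, Loc (cyl N) N' id q := Loc.of_cont continuous_id fun q => (h1 q).symm
  refine ⟨fun f q a => ?_, fun f q => ?_, fun q c => ?_⟩
  · refine ((hl q).D_iso (fun q => f q.1) (some a)).trans ?_
    change N'.td _ q (ee (some a)) = N.td f q.1 (ee a)
    rw [h4, down_ee_some]
  · refine ((hl q).D_iso (fun q => f q.1) none).trans ?_
    change N'.td _ q (ee none) = 0
    rw [h4, down_ee_none, map_zero]
  · exact ((hl q).D_iso (fun q => q.2) c).trans (h3 q _)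

theorem cyl_D_some (f : X → ℝ) (a : ι) :
    (cyl N).pre.D (some a) (fun q => f q.1) = fun q => N.pre.D a f q.1 :=
  funext fun q => (cyl_hom N).1 f q a

theorem cyl_D_none (f : X → ℝ) : (cyl N).pre.D none (fun q => f q.1) = fun _ => 0 :=
  funext fun q => (cyl_hom N).2.1 f q

theorem cyl_gam (f g : X → ℝ) (q : X × ℝ) :
    (cyl N).pre.gam (fun q => f q.1) (fun q => g q.1) q = N.pre.gam f g q.1 := by
  simp [Imm.gam_apply, Fintype.sum_option, cyl_D_some, cyl_D_none]

theorem cyl_lap (f : X → ℝ) (q : X × ℝ) :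
    (cyl N).pre.lap (fun q => f q.1) q = N.pre.lap f q.1 := by
  simp [Imm.lap_apply, Fintype.sum_option, cyl_D_some, cyl_D_none, Imm.D_const]

theorem cyl_scal (q : X × ℝ) : (cyl N).pre.scal q = N.pre.scal q.1 := by
  have h1 : ∀ a b, (cyl N).pre.P (some a) (some b) = fun q => N.pre.P a b q.1 := fun a b =>
    cyl_D_some N (N.pre.x b) a
  have h2 : ∀ b, (cyl N).pre.P none (some b) = fun _ => 0 := fun b => cyl_D_none N (N.pre.x b)
  have h3 : ∀ c, (cyl N).pre.P c none = fun _ => (ee c : E (Option ι)) none := fun c =>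
    funext fun q => (cyl_hom N).2.2 q c
  have e1 := (cyl N).scal_DP q
  have e2 := N.scal_DP q.1
  simp only [Fintype.sum_option, h1, h2, h3, cyl_D_some, cyl_D_none, Imm.D_const, mul_zero,
    Finset.sum_const_zero, zero_add, add_zero] at e1
  linarith

theorem cyl_EF (F : X → ℝ) (q : X × ℝ) : (cyl N).pre.EF (fun q => F q.1) q = N.pre.EF F q.1 := by
  rw [Imm.EF_apply, Imm.EF_apply, cyl_scal, cyl_lap, cyl_gam]

end Cyl

end Crest.Agent.N228.Gr

end
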