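import Crest.Agent.N222.F.Hess
import Crest.Agent.N222.F.Res
import Crest.Agent.N228.Gr.Iso
import Crest.Agent.N228.W.Amb
import Crest.Agent.N222.A.SmJ

-- ▼ part N228/Gr/Jet
section

/-!
# Row 228, graft: convergence of jets (helper90)

`C1`, `C2` : convergence of the 1-jets (2-jets) of `φ j` at `z j` to the jet of `ψ` at `w`.
`PC` : pointed charts in which a family of immersions converges.  Then `D`, `gam`, `lap`, `scal`,
`EF` converge.
-/

set_option autoImplicit false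
set_option linter.unusedSectionVars false
open Set Filter Topology Function Metric
open scoped ContDiff
open Crest.Agent.N222

noncomputable section

namespace Crest.Agent.N228.Gr

section Jets

variable {α : Type} {l : Filter α} {V F G : Type} [NormedAddCommGroup V] [NormedSpace ℝ V]
  [NormedAddCommGroup F] [NormedSpace ℝ F] [NormedAddCommGroup G] [NormedSpace ℝ G]

/-- convergence of 1-jets -/
structure C1 (l : Filter α) (φ : α → V → F) (z : α → V) (ψ : V → F) (w : V) : Prop where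
  sm : ∀ᶠ j in l, ContDiffAt ℝ 1 (φ j) (z j)
  sm' : ContDiffAt ℝ 1 ψ w
  t0 : Tendsto (fun j => φ j (z j)) l (𝓝 (ψ w))
  t1 : Tendsto (fun j => fderiv ℝ (φ j) (z j)) l (𝓝 (fderiv ℝ ψ w))

/-- convergence of 2-jets -/
structure C2 (l : Filter α) (φ : α → V → F) (z : α → V) (ψ : V → F) (w : V) : Prop where
  c1 : C1 l φ z ψ w
  c2 : C1 l (fun j => fderiv ℝ (φ j)) z (fderiv ℝ ψ) w

variable {φ φ' : α → V → F} {χ : α → V → G} {z : α → V} {ψ ψ' : V → F} {θ : V → G} {w : V}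

theorem C1.congr (h : C1 l φ z ψ w) (e : ∀ᶠ j in l, φ' j =ᶠ[𝓝 (z j)] φ j) (e' : ψ' =ᶠ[𝓝 w] ψ) :
    C1 l φ' z ψ' w where
  sm := (h.sm.and e).mono fun _ hj => hj.1.congr_of_eventuallyEq hj.2
  sm' := h.sm'.congr_of_eventuallyEq e'
  t0 := by
    rw [e'.self_of_nhds]
    exact h.t0.congr' (e.mono fun j hj => hj.self_of_nhds.symm)
  t1 := by
    rw [e'.fderiv_eq]
    exact h.t1.congr' (e.mono fun j hj => hj.fderiv_eq.symm)

theorem C2.congr (h : C2 l φ z ψ w) (e : ∀ᶠ j in l, φ' j =ᶠ[𝓝 (z j)] φ j) (e' : ψ' =ᶠ[𝓝 w] ψ) :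
    C2 l φ' z ψ' w :=
  ⟨h.c1.congr e e', h.c2.congr (e.mono fun _ hj => hj.fderiv) e'.fderiv⟩

theorem C1.prodMk (h : C1 l φ z ψ w) (h' : C1 l χ z θ w) :
    C1 l (fun j y => (φ j y, χ j y)) z (fun y => (ψ y, θ y)) w where
  sm := (h.sm.and h'.sm).mono fun _ hj => hj.1.prodMk hj.2
  sm' := h.sm'.prodMk h'.sm'
  t0 := h.t0.prodMk_nhds h'.t0
  t1 := by
    rw [(h.sm'.differentiableAt one_ne_zero).fderiv_prodMk (h'.sm'.differentiableAt one_ne_zero)]
    refine (((ContinuousLinearMap.prodₗᵢ ℝ).continuous.tendsto _).comp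
      (h.t1.prodMk_nhds h'.t1)).congr' ((h.sm.and h'.sm).mono fun j hj => ?_)
    exact ((hj.1.differentiableAt one_ne_zero).fderiv_prodMk
      (hj.2.differentiableAt one_ne_zero)).symm

theorem C1.comp (h : C1 l φ z ψ w) {Φ : F → G} (hΦ : ContDiffAt ℝ 1 Φ (ψ w)) :
    C1 l (fun j y => Φ (φ j y)) z (fun y => Φ (ψ y)) w := by
  have h1 : ∀ᶠ j in l, ContDiffAt ℝ 1 Φ (φ j (z j)) := h.t0.eventually (hΦ.eventually (by simp))
  refine ⟨(h1.and h.sm).mono fun j hj => hj.1.comp _ hj.2, hΦ.comp _ h.sm',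
    hΦ.continuousAt.tendsto.comp h.t0, ?_⟩
  have h2 := ((isBoundedBilinearMap_comp (𝕜 := ℝ) (E := V) (F := F) (G := G)).continuous.tendsto
    _).comp (((hΦ.fderiv_right (m := 0) (by simp)).continuousAt.tendsto.comp h.t0).prodMk_nhds h.t1)
  rw [fderiv_fun_comp _ (hΦ.differentiableAt one_ne_zero) (h.sm'.differentiableAt one_ne_zero)]
  exact h2.congr' ((h1.and h.sm).mono fun j hj => (fderiv_fun_comp _
    (hj.1.differentiableAt one_ne_zero) (hj.2.differentiableAt one_ne_zero)).symm)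

theorem fderiv_comp_ev {Φ : F → G} (hΦ : ContDiffAt ℝ 1 Φ (ψ w)) (h : ContDiffAt ℝ 1 ψ w) :
    (fderiv ℝ fun y => Φ (ψ y)) =ᶠ[𝓝 w] fun y => fderiv ℝ Φ (ψ y) ∘L fderiv ℝ ψ y := by
  filter_upwards [h.eventually (by simp), h.continuousAt.eventually (hΦ.eventually (by simp))]
    with y h1 h2
  exact fderiv_fun_comp _ (h2.differentiableAt one_ne_zero) (h1.differentiableAt one_ne_zero)

theorem C2.comp (h : C2 l φ z ψ w) {Φ : F → G} (hΦ : ContDiffAt ℝ 2 Φ (ψ w)) :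
    C2 l (fun j y => Φ (φ j y)) z (fun y => Φ (ψ y)) w := by
  have h1 : ContDiffAt ℝ 1 Φ (ψ w) := hΦ.of_le (by norm_num)
  refine ⟨h.c1.comp h1, ((h.c1.prodMk h.c2).comp
    (Φ := fun s : F × (V →L[ℝ] F) => fderiv ℝ Φ s.1 ∘L s.2) ?_).congr ?_ (fderiv_comp_ev h1 h.c1.sm')⟩
  · exact ((hΦ.fderiv_right (m := 1) (by norm_num)).comp (f := Prod.fst) (ψ w, fderiv ℝ ψ w)
      contDiffAt_fst).clm_comp contDiffAt_snd
  · filter_upwards [h.c1.sm, h.c1.t0.eventually (h1.eventually (by simp))] with j a b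
    exact fderiv_comp_ev b a

theorem fderiv_prod_ev (h : ContDiffAt ℝ 1 ψ w) (h' : ContDiffAt ℝ 1 θ w) :
    (fderiv ℝ fun y => (ψ y, θ y)) =ᶠ[𝓝 w]
      fun y => ContinuousLinearMap.prodₗᵢ ℝ (fderiv ℝ ψ y, fderiv ℝ θ y) := by
  filter_upwards [h.eventually (by simp), h'.eventually (by simp)] with y h1 h2
  exact (h1.differentiableAt one_ne_zero).fderiv_prodMk (h2.differentiableAt one_ne_zero)

theorem C2.prodMk (h : C2 l φ z ψ w) (h' : C2 l χ z θ w) :
    C2 l (fun j y => (φ j y, χ j y)) z (fun y => (ψ y, θ y)) w :=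
  ⟨h.c1.prodMk h'.c1, ((h.c2.prodMk h'.c2).comp
    (ContinuousLinearMap.prodₗᵢ ℝ).contDiff.contDiffAt).congr
    ((h.c1.sm.and h'.c1.sm).mono fun _ hj => fderiv_prod_ev hj.1 hj.2)
    (fderiv_prod_ev h.c1.sm' h'.c1.sm')⟩

theorem C1.fixed (hψ : ContDiffAt ℝ 1 ψ w) (hz : Tendsto z l (𝓝 w)) : C1 l (fun _ => ψ) z ψ w :=
  ⟨hz.eventually (hψ.eventually (by simp)), hψ, hψ.continuousAt.tendsto.comp hz,
    (hψ.fderiv_right (m := 0) (by simp)).continuousAt.tendsto.comp hz⟩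

theorem C2.fixed (hψ : ContDiffAt ℝ 2 ψ w) (hz : Tendsto z l (𝓝 w)) : C2 l (fun _ => ψ) z ψ w :=
  ⟨C1.fixed (hψ.of_le (by norm_num)) hz, C1.fixed (hψ.fderiv_right (m := 1) (by norm_num)) hz⟩

theorem C1.const {c : α → F} {c0 : F} (hc : Tendsto c l (𝓝 c0)) :
    C1 l (fun j _ => c j) z (fun _ => c0) w :=
  ⟨.of_forall fun _ => contDiffAt_const, contDiffAt_const, hc, by
    simpa using tendsto_const_nhds⟩

theorem C2.const {c : α → F} {c0 : F} (hc : Tendsto c l (𝓝 c0)) :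
    C2 l (fun j _ => c j) z (fun _ => c0) w :=
  ⟨C1.const hc, (C1.const (c := fun _ => (0 : V →L[ℝ] F)) tendsto_const_nhds).congr
    (.of_forall fun _ => .of_forall fun _ => by simp) (.of_forall fun _ => by simp)⟩

theorem C2.add (h : C2 l φ z ψ w) (h' : C2 l φ' z ψ' w) :
    C2 l (fun j y => φ j y + φ' j y) z (fun y => ψ y + ψ' y) w :=
  (h.prodMk h').comp (Φ := fun s : F × F => s.1 + s.2) (by fun_prop)

theorem C2.smul {u : α → V → ℝ} {v : V → ℝ} (h : C2 l u z v w) (h' : C2 l φ z ψ w) :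
    C2 l (fun j y => u j y • φ j y) z (fun y => v y • ψ y) w :=
  (h.prodMk h').comp (Φ := fun s : ℝ × F => s.1 • s.2) (by fun_prop)

theorem C2.sum {κ : Type} (s : Finset κ) {φ : κ → α → V → F} {ψ : κ → V → F}
    (h : ∀ i ∈ s, C2 l (φ i) z (ψ i) w) :
    C2 l (fun j y => ∑ i ∈ s, φ i j y) z (fun y => ∑ i ∈ s, ψ i y) w := by
  classical
  induction s using Finset.induction_on with
  | empty => simpa using C2.const (c := fun _ => (0 : F)) tendsto_const_nhds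
  | insert a s ha ih =>
    simp only [Finset.sum_insert ha]
    exact (h a (Finset.mem_insert_self _ _)).add (ih fun i hi => h i (Finset.mem_insert_of_mem hi))

/-- uniform convergence of the jets on an open set -/
theorem C2.of_unif {U : Set V} (hU : IsOpen U) (hw : w ∈ U) (hz : Tendsto z l (𝓝 w))
    (hφ : ∀ᶠ j in l, ContDiffOn ℝ ∞ (φ j) U) (hψ : ContDiffAt ℝ ∞ ψ w)
    (h : ∀ k ≤ 2, TendstoUniformlyOn (fun j => iteratedFDeriv ℝ k (φ j)) (iteratedFDeriv ℝ k ψ) l U) :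
    C2 l φ z ψ w := by
  have hzU : ∀ᶠ j in l, z j ∈ U := hz.eventually (hU.mem_nhds hw)
  have H : ∀ k ≤ 2, Tendsto (fun j => iteratedFDeriv ℝ k (φ j) (z j)) l
      (𝓝 (iteratedFDeriv ℝ k ψ w)) := fun k hk =>
    (h k hk).tendsto_comp ((hψ.iteratedFDeriv_right (m := 0) (i := k)
      (by rw [zero_add]; exact_mod_cast le_top)).continuousAt.continuousWithinAt)
      (tendsto_nhdsWithin_iff.2 ⟨hz, hzU⟩)
  have s1 : ∀ᶠ j in l, ContDiffAt ℝ ∞ (φ j) (z j) :=
    (hφ.and hzU).mono fun j hj => hj.1.contDiffAt (hU.mem_nhds hj.2)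
  have t1 : Tendsto (fun j => fderiv ℝ (φ j) (z j)) l (𝓝 (fderiv ℝ ψ w)) := by
    have := ((continuousMultilinearCurryFin1 ℝ V F).continuous.tendsto _).comp (H 1 (by norm_num))
    have e : ∀ (f : V → F) y, continuousMultilinearCurryFin1 ℝ V F (iteratedFDeriv ℝ 1 f y) =
        fderiv ℝ f y := fun f y => by ext v; simp
    simpa only [comp_def, e] using this
  refine ⟨⟨s1.mono fun _ hj => hj.of_le (by simp), hψ.of_le (by simp), ?_, t1⟩,
    s1.mono fun _ hj => hj.fderiv_right (by norm_cast), hψ.fderiv_right (by norm_cast), t1, ?_⟩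
  · have := ((continuousMultilinearCurryFin0 ℝ V F).continuous.tendsto _).comp (H 0 (by norm_num))
    simpa [comp_def] using this
  · have := ((continuousMultilinearCurryFin1 ℝ V (V →L[ℝ] F)).continuous.tendsto _).comp
      (((continuousMultilinearCurryRightEquiv' ℝ 1 V F).continuous.tendsto _).comp (H 2 le_rfl))
    have e : ∀ (f : V → F) y, continuousMultilinearCurryFin1 ℝ V (V →L[ℝ] F)
        (continuousMultilinearCurryRightEquiv' ℝ 1 V F (iteratedFDeriv ℝ 2 f y)) =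
        fderiv ℝ (fderiv ℝ f) y := fun f y => by
      ext v v'; simp [iteratedFDeriv_two_apply]
    simpa only [comp_def, e] using this


end Jets

/-! ### pointed charts -/

variable {α : Type} {l : Filter α} {d : ℕ} {κ : Type} [Fintype κ] {X Z : Type}
  [TopologicalSpace X] [TopologicalSpace Z]

/-- pointed charts in which the immersions converge in `C²` -/
structure PC (l : Filter α) (G : α → Imm d κ X) (e : α → OpenPartialHomeomorph X (E (Fin d)))
    (p : α → X) (G0 : Imm d κ Z) (e0 : OpenPartialHomeomorph Z (E (Fin d))) (p0 : Z) : Prop where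
  ch : ∀ᶠ j in l, IsChart (G j).x (e j) ∧ p j ∈ (e j).source
  ch0 : IsChart G0.x e0
  mem0 : p0 ∈ e0.source
  x : C2 l (fun j => (G j).x ∘ (e j).symm) (fun j => e j (p j)) (G0.x ∘ e0.symm) (e0 p0)

/-- functions whose 1-jets converge in the charts -/
abbrev F1 {F : Type} [NormedAddCommGroup F] [NormedSpace ℝ F] (l : Filter α)
    (e : α → OpenPartialHomeomorph X (E (Fin d))) (p : α → X)
    (e0 : OpenPartialHomeomorph Z (E (Fin d))) (p0 : Z) (f : α → X → F) (f0 : Z → F) : Prop :=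
  C1 l (fun j => f j ∘ (e j).symm) (fun j => e j (p j)) (f0 ∘ e0.symm) (e0 p0)

/-- functions whose 2-jets converge in the charts -/
abbrev F2 {F : Type} [NormedAddCommGroup F] [NormedSpace ℝ F] (l : Filter α)
    (e : α → OpenPartialHomeomorph X (E (Fin d))) (p : α → X)
    (e0 : OpenPartialHomeomorph Z (E (Fin d))) (p0 : Z) (f : α → X → F) (f0 : Z → F) : Prop :=
  C2 l (fun j => f j ∘ (e j).symm) (fun j => e j (p j)) (f0 ∘ e0.symm) (e0 p0)

variable [DecidableEq κ]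

/-- `D` on jets -/
def DJ (b : κ) (s : (E (Fin d) →L[ℝ] E κ) × (E (Fin d) →L[ℝ] ℝ)) : ℝ :=
  s.2 (ContinuousLinearMap.adjoint (Lam s.1) (ee b))

theorem contDiffAt_DJ (b : κ) {s : (E (Fin d) →L[ℝ] E κ) × (E (Fin d) →L[ℝ] ℝ)}
    (hJ : Injective s.1) : ContDiffAt ℝ ∞ (DJ b) s :=
  contDiffAt_snd.clm_apply ((((contDiff_adjoint (κ := Fin d) (ι := κ)).contDiffAt.comp _
    (contDiffAt_Lam hJ)).comp s contDiffAt_fst).clm_apply contDiffAt_const)

theorem D_chart {G : Imm d κ X} {e : OpenPartialHomeomorph X (E (Fin d))} (he : IsChart G.x e)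
    {p : X} (hp : p ∈ e.source) (b : κ) (f : X → ℝ) :
    G.pre.D b f p = DJ b (fderiv ℝ (G.x ∘ e.symm) (e p), fderiv ℝ (f ∘ e.symm) (e p)) := by
  change G.td f p (ee b) = _
  rw [Imm.td_chart f he hp]
  rfl

theorem D_chart_ev {G : Imm d κ X} {e : OpenPartialHomeomorph X (E (Fin d))} (he : IsChart G.x e)
    {p : X} (hp : p ∈ e.source) (b : κ) (f : X → ℝ) : G.pre.D b f ∘ e.symm =ᶠ[𝓝 (e p)]
      fun y => DJ b (fderiv ℝ (G.x ∘ e.symm) y, fderiv ℝ (f ∘ e.symm) y) := by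
  filter_upwards [e.open_target.mem_nhds (e.map_source hp)] with y hy
  rw [comp_apply, D_chart he (e.map_target hy), e.right_inv hy]

namespace PC

variable {G : α → Imm d κ X} {e : α → OpenPartialHomeomorph X (E (Fin d))} {p : α → X}
  {G0 : Imm d κ Z} {e0 : OpenPartialHomeomorph Z (E (Fin d))} {p0 : Z}
  (h : PC l G e p G0 e0 p0) {f g : α → X → ℝ} {f0 g0 : Z → ℝ}

include h

theorem val {F : Type} [NormedAddCommGroup F] [NormedSpace ℝ F] {f : α → X → F} {f0 : Z → F}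
    (hf : F1 l e p e0 p0 f f0) : Tendsto (fun j => f j (p j)) l (𝓝 (f0 p0)) := by
  have := hf.t0
  simp only [comp_apply, e0.left_inv h.mem0] at this
  exact this.congr' (h.ch.mono fun j hj => by simp only [(e j).left_inv hj.2])

theorem D (hf : F1 l e p e0 p0 f f0) (b : κ) :
    Tendsto (fun j => (G j).pre.D b (f j) (p j)) l (𝓝 (G0.pre.D b f0 p0)) := by
  rw [D_chart h.ch0 h.mem0]
  exact ((contDiffAt_DJ b (h.ch0.inj _ (e0.map_source h.mem0))).continuousAt.tendsto.comp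
    (h.x.c1.t1.prodMk_nhds hf.t1)).congr' (h.ch.mono fun j hj => (D_chart hj.1 hj.2 b _).symm)

theorem D1 (hf : F2 l e p e0 p0 f f0) (b : κ) :
    F1 l e p e0 p0 (fun j => (G j).pre.D b (f j)) (G0.pre.D b f0) :=
  ((h.x.c2.prodMk hf.c2).comp
    ((contDiffAt_DJ b (h.ch0.inj _ (e0.map_source h.mem0))).of_le (by simp))).congr
    (h.ch.mono fun _ hj => D_chart_ev hj.1 hj.2 b _) (D_chart_ev h.ch0 h.mem0 b _)

theorem gam (hf : F1 l e p e0 p0 f f0) (hg : F1 l e p e0 p0 g g0) :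
    Tendsto (fun j => (G j).pre.gam (f j) (g j) (p j)) l (𝓝 (G0.pre.gam f0 g0 p0)) := by
  simp only [Imm.gam_apply]
  exact tendsto_finsetSum _ fun a _ => (h.D hf a).mul (h.D hg a)

theorem lap (hf : F2 l e p e0 p0 f f0) :
    Tendsto (fun j => (G j).pre.lap (f j) (p j)) l (𝓝 (G0.pre.lap f0 p0)) := by
  simp only [Imm.lap_apply]
  exact tendsto_finsetSum _ fun a _ => h.D (h.D1 hf a) a

theorem DP (a b c : κ) : Tendsto (fun j => (G j).pre.D a ((G j).pre.P b c) (p j)) l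
    (𝓝 (G0.pre.D a (G0.pre.P b c) p0)) :=
  h.D (h.D1 (f := fun j => (G j).pre.x c) (f0 := G0.pre.x c)
    (h.x.comp (Φ := fun y : E κ => y c) (by fun_prop)) b) a

theorem scal : Tendsto (fun j => (G j).pre.scal (p j)) l (𝓝 (G0.pre.scal p0)) := by
  have H : Tendsto (fun j => 2 * (G j).pre.scal (p j)) l (𝓝 (2 * G0.pre.scal p0)) := by
    simp only [Imm.scal_DP]
    have := h.DP
    refine Tendsto.sub (Tendsto.const_mul _ (tendsto_finsetSum _ fun c _ => ?_))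
      (tendsto_finsetSum _ fun a _ => tendsto_finsetSum _ fun b _ =>
        tendsto_finsetSum _ fun c _ => ?_)
    · exact (tendsto_finsetSum _ fun a _ => this a a c).mul
        (tendsto_finsetSum _ fun a _ => this a a c)
    · exact (this a b c).mul (this a b c)
  have := H.div_const 2
  simpa using this

theorem EF (hf : F2 l e p e0 p0 f f0) :
    Tendsto (fun j => (G j).pre.EF (f j) (p j)) l (𝓝 (G0.pre.EF f0 p0)) := by
  simp only [Imm.EF_apply]
  exact (h.scal.sub ((h.lap hf).const_mul 2)).sub (h.gam hf.c1 hf.c1)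

end PC

end Crest.Agent.N228.Gr

end
end

-- ▼ part N228/Gr/Neck

/-!
# Row 228, graft: jets of jointly smooth families on the neck (helper90)
-/

set_option autoImplicit false
set_option linter.unusedSectionVars false
open MeasureTheory Set Filter Topology Function Metric
open scoped ContDiff
open Crest.Agent.N222 Crest.Agent.N222.A

noncomputable section

namespace Crest.Agent.N228.Gr

variable {d m : ℕ} {ι κ : Type} [Fintype ι] [Fintype κ] {X Y : Type} [TopologicalSpace X]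
  [TopologicalSpace Y] {P W : Type} [NormedAddCommGroup P] [NormedSpace ℝ P]
  [NormedAddCommGroup W] [NormedSpace ℝ W]

/-- additional coordinates keep the charts -/
theorem isChart_of_proj {x : X → E ι} {x' : X → E κ} {e : OpenPartialHomeomorph X (E (Fin d))}
    (he : IsChart x e) (hs : ContDiffOn ℝ ∞ (x' ∘ e.symm) e.target) (π : E κ →L[ℝ] E ι)
    (h : ∀ p, π (x' p) = x p) : IsChart x' e := by
  refine ⟨hs, fun z hz => ?_⟩
  have h2 : DifferentiableAt ℝ (x' ∘ e.symm) z :=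
    (hs.contDiffAt (e.open_target.mem_nhds hz)).differentiableAt (by simp)
  have h3 := (π.hasFDerivAt.comp z h2.hasFDerivAt).fderiv
  have h4 : π ∘ (x' ∘ e.symm) = x ∘ e.symm := funext fun y => h _
  have h5 := he.inj z hz
  rw [← h4, h3] at h5
  exact Injective.of_comp h5

/-- an immersion with additional coordinates -/
def lift (M : Imm d ι X) (x' : X → E κ) (hs : M.Sm x') (π : E κ →L[ℝ] E ι)
    (h : ∀ p, π (x' p) = M.x p) : Imm d κ X :=
  ⟨x', M.ch, M.mem, fun p => isChart_of_proj (M.isChart p) (hs p) π h⟩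

/-- substitution of a smooth function for the parameter -/
theorem smJ_subst {Λ : Type} [NormedAddCommGroup Λ] [NormedSpace ℝ Λ]
    {ch : X → OpenPartialHomeomorph X (E (Fin d))} {Φ : P → X → W} (hΦ : SmJ ch univ Φ)
    {a : Λ → X → P} (ha : SmJ ch univ a) : SmJ ch univ fun ξ p => Φ (a ξ p) p := fun p =>
  (hΦ p).comp (contDiffOn_fst.prodMk (ha p)) fun _ hq => ⟨hq.1, mem_univ _⟩


/-- jointly smooth at the points of `U` -/
theorem smJ_at {N : Imm m ι Y} {M : Imm d ι X} {j : Y → X} {q : Y} (h : Loc N M j q)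
    {Φ : P → X → W} (hΦ : SmJ M.ch univ Φ) (ξ : P) :
    ContDiffAt ℝ ∞ (fun r : E (Fin m) × P => Φ r.2 (j ((N.ch q).symm r.1))) (N.ch q q, ξ) := by
  have h1 : ContDiffAt ℝ ∞ (fun r : E (Fin d) × P => Φ r.2 ((M.ch (j q)).symm r.1))
      ((M.ch (j q) ∘ j ∘ (N.ch q).symm) (N.ch q q), ξ) := by
    rw [Loc.j_apply]
    exact (hΦ (j q)).contDiffAt (((M.ch _).open_target.prod isOpen_univ).mem_nhds
      ⟨(M.ch _).map_source (M.mem _), mem_univ _⟩)
  refine (h1.comp (f := fun r : E (Fin m) × P => ((M.ch (j q) ∘ j ∘ (N.ch q).symm) r.1, r.2))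
    (N.ch q q, ξ) ((h.smooth_j.comp (f := Prod.fst) (N.ch q q, ξ) contDiffAt_fst).prodMk
      contDiffAt_snd)).congr_of_eventuallyEq ?_
  filter_upwards [(continuousAt_fst (p := (N.ch q q, ξ))).eventually (h.chart_eq id)] with r hr
  exact congrArg (Φ r.2) hr

/-- restriction to a submanifold -/
theorem smJ_res {N : Imm m ι Y} {M : Imm d ι X} {j : Y → X} (h : ∀ q, Loc N M j q)
    {Φ : P → X → W} (hΦ : SmJ M.ch univ Φ) : SmJ N.ch univ fun ξ q => Φ ξ (j q) :=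
  SmJ.of_charts fun q ξ _ => ⟨N.ch q, N.isChart q, N.mem q, smJ_at (h q) hΦ ξ⟩

/-- families on the cylinder -/
theorem smJ_cyl {N : Imm m ι Y} {Φ : P × ℝ → Y → W} (hΦ : SmJ N.ch univ Φ) :
    SmJ (cyl N).ch univ fun σ r => Φ (σ, r.2) r.1 := fun r =>
  (hΦ r.1).comp (f := fun s : E (Fin (m + 1)) × P => (tail0 s.1, s.2, s.1 0))
    ((contDiff_tail0.comp contDiff_fst).prodMk (contDiff_snd.prodMk (by fun_prop))).contDiffOn
    fun _ hq => ⟨hq.1, mem_univ _⟩


variable [DecidableEq ι] [T2Space X] [CompactSpace X] [MeasurableSpace X] {M : Imm (m + 1) ι X}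
  {𝒰 : Ultrafilter ℕ} {u : ℕ → X → ℝ}

/-- the charts at a sequence of points of the neck -/
theorem neck_charts (hM : Injective M.x) {N : Imm m ι (M.Sig 𝒰 u)} (hN : ∀ q, N.x q = M.x q)
    (hB : IsClosed (M.Bad 𝒰 u)) {p : M.Sig 𝒰 u} {t ρ : ℝ}
    {e : OpenPartialHomeomorph X (E (Fin (m + 1)))}
    {c : ℕ → OpenPartialHomeomorph X (E (Fin (m + 1)))} (B : Box M 𝒰 u p t e ρ c) {q : ℕ → X}
    (hq : Tendsto q 𝒰 (𝓝 p)) (ht : Tendsto (fun j => u j (q j)) 𝒰 (𝓝 t)) :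
    ∃ e' : OpenPartialHomeomorph (M.Sig 𝒰 u) (E (Fin m)), IsChart N.x e' ∧ p ∈ e'.source ∧
      (∀ᶠ j in (𝒰 : Filter ℕ), IsChart M.x (c j) ∧ q j ∈ (c j).source) ∧
      ∀ (P W : Type) [NormedAddCommGroup P] [NormedSpace ℝ P] [NormedAddCommGroup W]
        [NormedSpace ℝ W] (Φ : P × ℝ → X → W) (σ : ℕ → P) (σ0 : P), SmJ M.ch univ Φ →
        Tendsto σ 𝒰 (𝓝 σ0) → F2 𝒰 c q (prodChart e') (p, 0)
          (fun j q => Φ (σ j, u j q - t) q) fun r => Φ (σ0, r.2) r.1 := by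
  obtain ⟨e', he', h1, h2, h3, h4⟩ := exists_sliceChart (S := M.Sig 𝒰 u)
    (B.ch.restr hB.isOpen_compl) (fun q hq => ⟨fun h => (B.slice q hq.1).1 h.1,
      fun h => ⟨(B.slice q hq.1).2 h, hq.2⟩⟩) p
  rw [← funext hN] at he'
  have hpe : p ∈ e'.source := h1 ▸ ⟨B.mem, p.2.2⟩
  obtain ⟨N0, hN0, δ, hδ, hcov⟩ := B.cover
  have hc : ∀ᶠ j in (𝒰 : Filter ℕ), q j ∈ (c j).source ∧ ‖c j (q j)‖ < ρ / 2 := by
    filter_upwards [hcov, hq hN0, Metric.tendsto_nhds.1 ht δ hδ] with j a1 a2 a3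
    exact a1 _ a2 a3
  have hρ := B.pos
  have hπ : ∀ z : E (Fin (m + 1)), z - z 0 • ee 0 = cons0 0 (tail0 z) := fun z => by
    ext i; refine Fin.cases ?_ (fun i => ?_) i <;> simp [ee, cons0, tail0, Fin.tail]
  have cπ : ContDiff ℝ ∞ fun z : E (Fin (m + 1)) => z - z 0 • ee 0 := by fun_prop
  have hsub : ∀ z ∈ ball (0 : E (Fin (m + 1))) ρ, z - z 0 • ee 0 ∈ e.target := fun z hz => by
    refine B.sub (mem_closedBall_zero_iff.2 (le_trans ?_ (mem_ball_zero_iff.1 hz).le))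
    have := Lm.norm_rep_zero_le z
    rwa [Lm.rep, zero_sub, neg_smul, ← sub_eq_add_neg] at this
  have hψ : ∀ z ∈ ball (0 : E (Fin (m + 1))) ρ,
      ContDiffAt ℝ ∞ (fun z : E (Fin (m + 1)) => M.x (e.symm (z - z 0 • ee 0))) z := fun z hz =>
    ContDiffAt.comp (g := M.x ∘ e.symm) z (B.ch.contDiffAt (hsub z hz)) cπ.contDiffAt
  have hz : Tendsto (fun j => c j (q j)) 𝒰 (𝓝 0) := by
    obtain ⟨w, hw, hl⟩ := (isCompact_closedBall (0 : E (Fin (m + 1))) (ρ / 2)).ultrafilter_le_nhds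
      (𝒰.map fun j => c j (q j)) (le_principal_iff.2 (mem_map.2 (hc.mono fun j hj =>
        mem_closedBall_zero_iff.2 hj.2.le)))
    have hl : Tendsto (fun j => c j (q j)) 𝒰 (𝓝 w) := hl
    have hw' : w ∈ ball (0 : E (Fin (m + 1))) ρ :=
      closedBall_subset_ball (half_lt_self hρ) hw
    have a1 := (C2.of_unif isOpen_ball hw' hl (B.chj.mono fun j hj => hj.2.1 ▸ hj.1.sm)
      (hψ w hw') B.conv).c1.t0
    have a2 : M.x (e.symm (w - w 0 • ee 0)) = M.x p :=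
      tendsto_nhds_unique (a1.congr' (hc.mono fun j hj => by
        simp only [comp_apply, (c j).left_inv hj.1])) ((M.continuous_x.tendsto _).comp hq)
    have a3 : w - w 0 • ee 0 = 0 := by
      rw [← B.zero, ← hM a2, e.right_inv (hsub w hw')]
    have a4 : t + w 0 = t := by
      refine tendsto_nhds_unique ((((EuclideanSpace.proj (𝕜 := ℝ)
        (0 : Fin (m + 1))).continuous.tendsto _).comp hl).const_add t) (ht.congr' ?_)
      filter_upwards [hc, B.chj] with j a b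
      have := b.2.2 _ (mem_ball_zero_iff.2 (a.2.trans (half_lt_self hρ)))
      rwa [(c j).left_inv a.1] at this
    rw [add_eq_left.1 a4, zero_smul, sub_zero] at a3
    rwa [a3] at hl
  refine ⟨e', he', hpe, (B.chj.and hc).mono fun j hj => ⟨hj.1.1, hj.2.1⟩,
    fun P W _ _ _ _ Φ σ σ0 hΦ hσ => ?_⟩
  obtain ⟨g, g1, g2, g3⟩ := N228.W.exists_inv B.ch B.mem
  have b0 : M.x (e.symm ((0 : E (Fin (m + 1))) - (0 : E (Fin (m + 1))) 0 • ee 0)) = M.x p := by
    rw [PiLp.zero_apply, zero_smul, sub_zero, ← B.zero, e.left_inv B.mem]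
  have b1 := (C2.of_unif isOpen_ball (mem_ball_self hρ) hz (B.chj.mono fun j hj => hj.2.1 ▸ hj.1.sm)
    (hψ 0 (mem_ball_self hρ)) B.conv).comp (Φ := g) (by
      rw [b0]; exact g1.self_of_nhds.of_le (by norm_cast))
  have b2 := (b1.prodMk ((C2.const hσ).prodMk (C2.fixed (ψ := fun y : E (Fin (m + 1)) => y 0)
    (by fun_prop) hz))).comp (Φ := fun r : E (Fin (m + 1)) × P × ℝ => Φ r.2 (e.symm r.1)) (by
      rw [b0, g2]
      exact ((hΦ.chart isOpen_univ B.ch).contDiffAt ((e.open_target.prod isOpen_univ).mem_nhds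
        ⟨e.map_source B.mem, mem_univ _⟩)).of_le (by norm_cast))
  have b3 : prodChart e' (p, 0) = 0 := by
    change cons0 0 (e' p) = 0
    rw [h3, ← hπ]
    change e p - e p 0 • ee 0 = 0
    simp [B.zero]
  obtain ⟨N1, n1, n2, n3⟩ := eventually_nhds_iff.1 (g3.and (e.open_source.eventually_mem B.mem))
  change C2 _ _ _ _ (prodChart e' (p, 0))
  rw [b3]
  refine b2.congr ?_ ?_
  · filter_upwards [hc, B.chj, hq (n2.mem_nhds n3)] with j a b a'
    have a1 : c j (q j) ∈ (c j).target := (c j).map_source a.1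
    have a2 := (c j).continuousAt_symm a1
    rw [ContinuousAt, (c j).left_inv a.1] at a2
    filter_upwards [(c j).open_target.mem_nhds a1, a2 (n2.mem_nhds a')] with y y1 y2
    simp only [comp_apply]
    rw [(n1 _ y2).1, e.left_inv (n1 _ y2).2, b.2.2 y (b.2.1 ▸ y1), add_sub_cancel_left]
  · have a1 : Tendsto (fun y : E (Fin (m + 1)) => cons0 0 (tail0 y)) (𝓝 0) (𝓝 (e p)) := by
      simp only [← hπ, B.zero]
      exact cπ.continuous.tendsto' _ _ (by simp)
    have a2 := (e.tendsto_symm B.mem).comp a1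
    have a3 : tail0 (0 : E (Fin (m + 1))) ∈ e'.target := by
      rw [← b3]
      exact e'.map_source hpe
    filter_upwards [a2 (n2.mem_nhds n3), a1 (e.open_target.mem_nhds (e.map_source B.mem)),
      (e'.open_target.preimage contDiff_tail0.continuous).mem_nhds a3] with y y1 y2 y3
    change Φ (σ0, y 0) (e'.symm (tail0 y)) = _
    have y4 : g (M.x (e.symm (cons0 0 (tail0 y)))) = cons0 0 (tail0 y) :=
      (n1 _ y1).1.trans (e.right_inv y2)
    rw [h4 _ y3, hπ, y4]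
    rfl

/-- from sequences to uniform statements -/
theorem neck_ev {P : Type} [TopologicalSpace P]
    (hC : ∀ p, p ∉ Sb 𝒰 u → ∀ T : ℝ, ∃ N ∈ 𝓝 p, ∀ᶠ j in (𝒰 : Filter ℕ), ∀ q ∈ N, T < |u j q|)
    {K : Set X} (hK : IsCompact K) {S : Set P} (hS : IsCompact S) (T : ℝ) {R : ℕ → P → X → Prop}
    (h : ∀ (σ : ℕ → P) (q : ℕ → X) (σ0 : P) (p : X) (t : ℝ), σ0 ∈ S → p ∈ K → p ∈ Sb 𝒰 u → |t| ≤ T →
      Tendsto σ 𝒰 (𝓝 σ0) → Tendsto q 𝒰 (𝓝 p) → Tendsto (fun j => u j (q j)) 𝒰 (𝓝 t) →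
      ∀ᶠ j in (𝒰 : Filter ℕ), R j (σ j) (q j)) :
    ∀ᶠ j in (𝒰 : Filter ℕ), ∀ σ ∈ S, ∀ q ∈ K, |u j q| ≤ T → R j σ q := by
  by_contra hn
  have h1 : ∀ᶠ j in (𝒰 : Filter ℕ), ∃ s : P × X, s.1 ∈ S ∧ s.2 ∈ K ∧ |u j s.2| ≤ T ∧
      ¬R j s.1 s.2 := (Ultrafilter.eventually_not.2 hn).mono fun j hj => by
    push Not at hj
    obtain ⟨σ, a1, q, a2, a3, a4⟩ := hj
    exact ⟨(σ, q), a1, a2, a3, a4⟩
  obtain ⟨s, hs⟩ := h1.choice
  obtain ⟨⟨σ0, p, t⟩, ⟨a1, a2, a3⟩, hl⟩ := (hS.prod (hK.prod (isCompact_Icc (a := -T)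
    (b := T)))).ultrafilter_le_nhds (𝒰.map fun j => ((s j).1, (s j).2, u j (s j).2))
    (le_principal_iff.2 (mem_map.2 (hs.mono fun j hj => ⟨hj.1, hj.2.1, abs_le.1 hj.2.2.1⟩)))
  have hl : Tendsto (fun j => ((s j).1, (s j).2, u j (s j).2)) 𝒰 (𝓝 (σ0, p, t)) := hl
  have l2 : Tendsto (fun j => (s j).2) 𝒰 (𝓝 p) := hl.snd_nhds.fst_nhds
  have hp : p ∈ Sb 𝒰 u := by
    by_contra hp
    obtain ⟨N, n1, n2⟩ := hC p hp T
    obtain ⟨j, j1, j2, j3⟩ := (n2.and (hs.and (l2 n1))).exists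
    exact (j1 _ j3).not_ge j2.2.2.1
  obtain ⟨j, j1, j2⟩ := (hs.and (h _ _ σ0 p t a1 a2 hp (abs_le.2 a3) hl.fst_nhds l2
    hl.snd_nhds.snd_nhds)).exists
  exact j1.2.2.2 j2

end Crest.Agent.N228.Gr

end
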