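import Crest.Agent.N228.G.Defs
import Crest.Agent.N228.Gr.Neck

-- ▼ part N228/Gr/Pt
section

/-!
# Row 228, graft: the class at one point (helper90)
-/

set_option autoImplicit false
set_option linter.unusedSectionVars false
open Set Filter Topology Function Real
open Crest.Agent.N228.G

noncomputable section

namespace Crest.Agent.N228.Gr

variable {C : Type} [Fintype C] {m : ℕ} {η r r' φ φ' g g' : C → ℝ} {V V' : ℝ}

theorem mem_fin {b : C} : b ∈ fin φ ↔ |φ b| ≤ π / 2 := by simp [fin]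

theorem shr1_abs {a b : ℝ} (h : Shr1 a b) (hb : |b| ≤ π / 2) : |a| ≤ π / 2 :=
  abs_le.2 ⟨not_lt.1 fun h' => (h.2 h').not_ge (abs_le.1 hb).1,
    not_lt.1 fun h' => (h.1 h').not_ge (abs_le.1 hb).2⟩

theorem shr1_refl (a : ℝ) : Shr1 a a := ⟨id, id⟩

theorem shr1_seg {a b b' l : ℝ} (h : Shr1 a b) (h' : Shr1 a b') (hl : l ∈ Icc (0 : ℝ) 1) :
    Shr1 a ((1 - l) * b + l * b') :=
  ⟨fun ha => (convex_Ioi (𝕜 := ℝ) (π / 2)) (h.1 ha) (h'.1 ha) (sub_nonneg.2 hl.2) hl.1 (by ring),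
    fun ha => (convex_Iio (𝕜 := ℝ) (-(π / 2))) (h.2 ha) (h'.2 ha) (sub_nonneg.2 hl.2) hl.1 (by ring)⟩

theorem shr1_ev {α : Type} {l : Filter α} {a b : α → ℝ} {a0 b0 b1 : ℝ} (h : Shr2 a0 b1)
    (h' : Shr1 b1 b0) (ha : Tendsto a l (𝓝 a0)) (hb : Tendsto b l (𝓝 b0)) :
    ∀ᶠ j in l, Shr1 (a j) (b j) := by
  refine Eventually.and ?_ ?_
  · rcases le_or_gt (π / 2) a0 with h1 | h1
    · exact (hb.eventually (lt_mem_nhds (h'.1 (h.1 h1)))).mono fun _ hj _ => hj
    · exact (ha.eventually (gt_mem_nhds h1)).mono fun _ hj h2 => (lt_asymm hj h2).elim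
  · rcases le_or_gt a0 (-(π / 2)) with h1 | h1
    · exact (hb.eventually (gt_mem_nhds (h'.2 (h.2 h1)))).mono fun _ hj _ => hj
    · exact (ha.eventually (lt_mem_nhds h1)).mono fun _ hj h2 => (lt_asymm hj h2).elim

theorem fin_subset (h : ∀ b, Shr1 (φ b) (φ' b)) : fin φ' ⊆ fin φ := fun b hb =>
  mem_fin.2 (shr1_abs (h b) (mem_fin.1 hb))

theorem few_of_subset (h : Few m φ) (hs : fin φ' ⊆ fin φ) : Few m φ' :=
  (Nat.add_le_add_right (Finset.card_le_card hs) 2).trans h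

theorem good_mono (h : Good m η r V φ g) (hV : V ≤ V') (hg : ∀ b, g' b ≤ g b)
    (hr : ∀ b, r' b ≤ r b) : Good m η r' V' φ g' :=
  h.imp id fun ⟨β, h1, h2⟩ => ⟨β, fun c hc => (hg c).trans_lt (h1 c hc),
    ((Finset.sum_le_sum fun c _ => add_le_add_right (hr c) _).trans_lt h2).trans_le hV⟩

theorem good_up (h : Good m η r V φ g) (hV : V ≤ V') : Good m η r V' φ g :=
  good_mono h hV (fun _ => le_rfl) fun _ => le_rfl

/-- two potentials -/
theorem good_conv {V1 V2 a b : ℝ} (h1 : Good m η r V1 φ g) (h2 : Good m η r V2 φ g) (ha : 0 ≤ a)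
    (hb : 0 ≤ b) (hab : a + b = 1) (h : a * V1 + b * V2 ≤ V) : Good m η r V φ g := by
  rcases le_total V1 V2 with h' | h'
  · refine good_up h1 (le_trans ?_ h)
    linear_combination mul_le_mul_of_nonneg_left h' hb - V1 * hab
  · refine good_up h2 (le_trans ?_ h)
    linear_combination mul_le_mul_of_nonneg_left h' ha - V2 * hab

theorem fin_ev {α : Type} {l : Filter α} {ψ : α → C → ℝ} (h : Tendsto ψ l (𝓝 φ)) :
    ∀ᶠ j in l, fin (ψ j) ⊆ fin φ := by
  have : ∀ b, ∀ᶠ j in l, b ∈ fin (ψ j) → b ∈ fin φ := fun b => by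
    by_cases hb : b ∈ fin φ
    · exact .of_forall fun _ _ => hb
    · exact ((tendsto_pi_nhds.1 h b).abs.eventually (lt_mem_nhds (not_le.1 (mem_fin.not.1 hb)))).mono
        fun j hj h' => (hj.not_ge (mem_fin.1 h')).elim
  exact (eventually_all.2 this).mono fun j hj b => hj b

theorem few_ev {α : Type} {l : Filter α} {ψ : α → C → ℝ} (h : Tendsto ψ l (𝓝 φ)) (hf : Few m φ) :
    ∀ᶠ j in l, Few m (ψ j) := (fin_ev h).mono fun _ => few_of_subset hf

/-- the class as a set of triples -/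
def GS (m : ℕ) (η r : C → ℝ) (μ : ℝ) : Set (ℝ × (C → ℝ) × (C → ℝ)) :=
  {z | Good m η r (z.1 - μ) z.2.1 z.2.2}

theorem isOpen_GS (hr : ∀ b, 0 ≤ r b) (μ : ℝ) : IsOpen (GS m η r μ) := by
  refine isOpen_iff_mem_nhds.2 fun z hz => ?_
  have h0 : Tendsto (fun w : ℝ × (C → ℝ) × (C → ℝ) => w.2.1) (𝓝 z) (𝓝 z.2.1) :=
    continuous_snd.fst.tendsto z
  rcases hz with hz | ⟨β, h1, h2⟩
  · exact (few_ev h0 hz).mono fun _ => Or.inl
  · have h3 : ∀ᶠ w in 𝓝 z, ∀ c ∈ fin z.2.1, w.2.2 c < rate (η c) (β c) (w.2.1 c) :=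
      (Finset.eventually_all _).2 fun c hc => ContinuousAt.eventually_lt (by fun_prop)
        (by unfold rate; fun_prop) (h1 c hc)
    have h4 : ∀ᶠ w in 𝓝 z, ∑ c ∈ fin z.2.1, (4 / 3 * β c ^ 2 + r c) < w.1 - μ :=
      ContinuousAt.eventually_lt (by fun_prop) (by fun_prop) h2
    filter_upwards [fin_ev h0, h3, h4] with w a1 a2 a3
    exact Or.inr ⟨β, fun c hc => a2 c (a1 hc), (Finset.sum_le_sum_of_subset_of_nonneg a1
      fun c _ _ => by have := hr c; positivity).trans_lt a3⟩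

variable [DecidableEq C] {c : C} {a e : ℝ}

theorem fin_update : fin (update φ c a) ⊆ insert c ((fin φ).erase c) := fun b hb => by
  by_cases h : b = c
  · simp [h]
  · simpa [h, mem_fin, update_of_ne h] using hb

theorem few_update (h : Few m φ) : Few (m + 1) (update φ c a) := by
  have h1 := (Finset.card_le_card (fin_update (φ := φ) (c := c) (a := a))).trans
    (Finset.card_insert_le _ _)
  have h2 := Finset.card_erase_le (s := fin φ) (a := c)
  unfold Few at *
  omega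

theorem few_park (h : Few (m + 1) φ) (hc : |φ c| ≤ π / 2) : Few m (update φ c π) := by
  have h1 : fin (update φ c π) ⊆ (fin φ).erase c := fun b hb => by
    by_cases h : b = c
    · rw [h, mem_fin, update_self, abs_of_pos pi_pos] at hb
      linarith [pi_pos]
    · simpa [h, mem_fin, update_of_ne h] using hb
  have h2 := Finset.card_le_card h1
  have h3 := Finset.card_erase_add_one (mem_fin.2 hc)
  unfold Few at *
  omega

/-- the colour `c` is put back -/
theorem good_update (h : Good m η r V φ g) (hr : ∀ b, 0 ≤ r b) {ρ : ℝ} (hρ : 0 ≤ ρ) (hη : 0 ≤ η c)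
    (he : |a| ≤ π / 2 → e < √(η c) / 8) :
    Good (m + 1) η (update r c ρ) (V + ρ + η c / 48) (update φ c a) (update g c e) := by
  refine h.imp few_update fun ⟨β, h1, h2⟩ => ⟨update β c (√(η c) / 8), fun b hb => ?_, ?_⟩
  · by_cases hb' : b = c
    · subst hb'
      rw [mem_fin, update_self] at hb
      simp only [update_self, rate]
      have a1 := cos_nonneg_of_mem_Icc (abs_le.1 hb)
      have a2 := mul_nonneg (sqrt_nonneg (η b)) (mul_nonneg a1 (sub_nonneg.2 (cos_le_one a)))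
      rw [sin_sq]
      linarith [he hb]
    · simp only [update_of_ne hb']
      exact h1 b (by simpa [mem_fin, update_of_ne hb'] using hb)
  · have a0 : ∀ b, 0 ≤ 4 / 3 * update β c (√(η c) / 8) b ^ 2 + update r c ρ b := fun b => by
      have : 0 ≤ update r c ρ b := by
        by_cases hb : b = c
        · rwa [hb, update_self]
        · rw [update_of_ne hb]; exact hr b
      positivity
    have a1 := Finset.sum_le_sum_of_subset_of_nonneg (fin_update (φ := φ) (c := c) (a := a))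
      fun b _ _ => a0 b
    rw [Finset.sum_insert (Finset.notMem_erase _ _), update_self, update_self,
      Finset.sum_congr rfl (g := fun b => 4 / 3 * β b ^ 2 + r b) (s₁ := (fin φ).erase c) fun b hb => by
        simp only [update_of_ne (Finset.ne_of_mem_erase hb)], div_pow, sq_sqrt hη] at a1
    have a2 := Finset.sum_le_sum_of_subset_of_nonneg (Finset.erase_subset c (fin φ))
      (f := fun b => 4 / 3 * β b ^ 2 + r b) fun b _ _ => by have := hr b; positivity
    linarith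

end Crest.Agent.N228.Gr

end
end

-- ▼ part N228/Gr/Tri

/-!
# Row 228, graft: the triple (potential, phases, slopes) of a state with extra coordinates (helper90)
-/

set_option autoImplicit false
set_option linter.unusedSectionVars false
open Set Filter Topology Function
open scoped ContDiff InnerProductSpace RealInnerProductSpace
open Crest.Agent.N222 Crest.Agent.N228.G
open Crest.Agent.N228.J (JC Fm)

noncomputable section

namespace Crest.Agent.N228.Gr

variable {d : ℕ} {ι ι' κ C : Type} [Fintype ι] [Fintype ι'] [Fintype κ] [Fintype C] {X Y : Type}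
  [TopologicalSpace X] [TopologicalSpace Y]

/-- concatenation -/
def cat (a : E ι) (b : κ → ℝ) : E (ι ⊕ κ) := WithLp.toLp 2 (Sum.elim (fun i => a i) b)

theorem contDiff_cat : ContDiff ℝ ∞ fun z : E ι × (κ → ℝ) => cat z.1 z.2 := by
  refine contDiff_euclidean.2 fun c => ?_
  cases c with
  | inl a => exact (contDiff_euclidean.1 contDiff_fst) a
  | inr i => exact contDiff_pi.1 contDiff_snd i

theorem cat_add (a a' : E ι) (b b' : κ → ℝ) : cat (a + a') (b + b') = cat a b + cat a' b' := by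
  ext (i | i) <;> rfl

theorem norm_sq_cat (a : E ι) (b : κ → ℝ) : ‖cat a b‖ ^ 2 = ‖a‖ ^ 2 + ∑ i, b i ^ 2 := by
  simp [EuclideanSpace.real_norm_sq_eq, cat, Fintype.sum_sum_type]

/-- `L ⊕ id` -/
def sumL (κ : Type) [Fintype κ] (L : E ι →ₗᵢ[ℝ] E ι') : E (ι ⊕ κ) →ₗᵢ[ℝ] E (ι' ⊕ κ) :=
  (PiLp.sumPiLpEquivProdLpPiLp (𝕜 := ℝ) 2 fun _ : ι' ⊕ κ => ℝ).symm.toLinearIsometry.comp
    ((L.withLpProdMap 2 (LinearIsometry.id (R := ℝ) (E := E κ))).comp
      (PiLp.sumPiLpEquivProdLpPiLp (𝕜 := ℝ) 2 fun _ : ι ⊕ κ => ℝ).toLinearIsometry)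

theorem sumL_cat (L : E ι →ₗᵢ[ℝ] E ι') (a : E ι) (b : κ → ℝ) : sumL κ L (cat a b) = cat (L a) b := by
  ext (i | i) <;> rfl

/-- the first factor -/
def inlL (ι κ : Type) [Fintype ι] [Fintype κ] : E ι →ₗᵢ[ℝ] E (ι ⊕ κ) where
  toFun a := cat a 0
  map_add' a a' := by rw [← cat_add, add_zero]
  map_smul' t a := by ext (i | i) <;> simp [cat]
  norm_map' a := (sq_eq_sq₀ (norm_nonneg _) (norm_nonneg _)).1 (by
    simpa using norm_sq_cat a (0 : κ → ℝ))

/-- projection to the first factor -/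
def prL (ι κ : Type) [Fintype ι] [Fintype κ] : E (ι ⊕ κ) →L[ℝ] E ι :=
  LinearMap.toContinuousLinearMap
    ⟨⟨fun w => WithLp.toLp 2 fun a => w (Sum.inl a), fun _ _ => rfl⟩, fun _ _ => rfl⟩

theorem norm_prL_le (w : E (ι ⊕ κ)) : ‖prL ι κ w‖ ≤ ‖w‖ := by
  have h : w = cat (prL ι κ w) fun i => w (Sum.inr i) := by ext (i | i) <;> rfl
  refine abs_le_of_sq_le_sq' ?_ (norm_nonneg _) |>.2
  conv_rhs => rw [h, norm_sq_cat]
  exact le_add_of_nonneg_right (Finset.sum_nonneg fun _ _ => sq_nonneg _)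

variable {M : Imm d ι X} {y : κ → X → ℝ}

theorem xt_x (hy : ∀ i, M.Sm (y i)) (p : X) : (M.xt y).x p = cat (M.x p) fun i => y i p := by
  ext (a | i)
  · rfl
  · exact if_pos hy

theorem xt_isChart (hy : ∀ i, M.Sm (y i)) {e : OpenPartialHomeomorph X (E (Fin d))}
    (he : IsChart M.x e) : IsChart (M.xt y).x e := by
  refine isChart_of_proj he ?_ (prL ι κ) fun _ => rfl
  rw [funext (xt_x hy)]
  exact contDiff_cat.comp_contDiffOn (he.sm.prodMk (contDiffOn_pi.2 fun i => (hy i).chart he))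

theorem LI.xt {M' : Imm d ι' Y} {j : X → Y} {p : X} (h : LI M M' j p) {y' : κ → Y → ℝ}
    (hy : ∀ i, M.Sm (y i)) (hy' : ∀ i, M'.Sm (y' i)) (e : ∀ᶠ q in 𝓝 p, ∀ i, y i q = y' i (j q)) :
    LI (M.xt y) (M'.xt y') j p := by
  obtain ⟨L, c, h⟩ := h
  refine ⟨sumL κ L, cat c 0, ?_⟩
  filter_upwards [h, e] with q h1 h2
  refine ⟨h1.1, ?_⟩
  rw [xt_x hy, xt_x hy', sumL_cat, ← cat_add, add_zero, h1.2, funext h2]

/-- where the new coordinates vanish nothing changes -/
theorem xt_zero (hy : ∀ i, M.Sm (y i)) {p : X} (h : ∀ i, y i p = 0) :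
    (M.xt y).x p = inlL ι κ (M.x p) + 0 := by
  rw [xt_x hy, add_zero, funext h]
  rfl


theorem li_amap (M : Imm d ι X) (L : E ι →ₗᵢ[ℝ] E ι') (c : E ι') (p : X) :
    LI M (amap M L c) id p := ⟨L, c, .of_forall fun _ => ⟨continuousAt_id, rfl⟩⟩

theorem li_cyl {N : Imm d ι X} (hy : ∀ i, N.Sm (y i)) (hy' : ∀ i, (cyl N).Sm fun r => y i r.1)
    (r : X × ℝ) : LI (cyl (N.xt y)) ((cyl N).xt fun i r => y i r.1) id r := by
  let e : Option (ι ⊕ κ) ≃ Option ι ⊕ κ :=
    ⟨fun c => c.elim (.inl none) (Sum.elim (fun a => .inl (some a)) .inr),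
      Sum.elim (fun c => c.map .inl) fun i => some (.inr i),
      by rintro (_ | _ | _) <;> rfl, by rintro ((_ | _) | _) <;> rfl⟩
  refine ⟨(LinearIsometryEquiv.piLpCongrLeft 2 ℝ ℝ e).toLinearIsometry, 0,
    .of_forall fun q => ⟨continuousAt_id, ?_⟩⟩
  rw [xt_x hy', add_zero]
  change _ = LinearIsometryEquiv.piLpCongrLeft 2 ℝ ℝ e (up q.2 ((N.xt y).x q.1))
  rw [xt_x hy]
  ext ((_ | _) | _) <;> rfl

theorem fm_xt {Λ : Type} [TopologicalSpace Λ] [DecidableEq ι] {y : Λ → X → κ → ℝ}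
    (hy : JC M.atl univ y) : Fm M.atl univ fun l => M.xt fun i q => y l q i :=
  ⟨fun _ => rfl, (((JC.of_sm rfl isOpen_univ M.sm_x).prodMk hy).comp contDiff_cat).congr
    fun l q _ => xt_x (fun i => (hy.apply i).sm rfl l) q⟩

variable [DecidableEq ι] [DecidableEq ι'] [DecidableEq κ]

theorem norm_grad (M : Imm d ι X) (f : X → ℝ) (p : X) : ‖M.grad f p‖ = √(M.pre.gam f f p) := by
  rw [Imm.gam_self_eq, Real.sqrt_sq (norm_nonneg _)]

/-- more coordinates, smaller slopes -/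
theorem xt_grad_le (M : Imm d ι X) (y : κ → X → ℝ) (f : X → ℝ) (p : X) :
    ‖(M.xt y).grad f p‖ ≤ ‖M.grad f p‖ := by
  set w := (M.xt y).grad f p
  set v := ContinuousLinearMap.adjoint (Lam ((M.xt y).J p)) w
  have h1 : (M.xt y).J p v = w := Imm.PL_grad f p
  have h2 : M.J p = prL ι κ ∘L (M.xt y).J p :=
    ((prL ι κ).hasFDerivAt.comp _ (((M.xt y).isChart p).hasFDerivAt
      ((M.ch p).map_source (M.mem p)))).fderiv
  have h3 : ‖w‖ ^ 2 = ⟪M.grad f p, prL ι κ w⟫ := by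
    rw [← real_inner_self_eq_norm_sq, ← Imm.td_eq_inner, ← Imm.td_eq_inner, ← h1,
      ← ContinuousLinearMap.comp_apply (prL ι κ), ← h2]
    simp only [Imm.td, ContinuousLinearMap.comp_apply]
    rw [adj_Lam_apply (M.J_inj p), adj_Lam_apply ((M.xt y).J_inj p)]
    rfl
  have h4 := (real_inner_le_norm (M.grad f p) (prL ι κ w)).trans
    (mul_le_mul_of_nonneg_left (norm_prL_le w) (norm_nonneg _))
  by_contra h
  push Not at h
  nlinarith [norm_nonneg (M.grad f p)]

/-- new coordinates, phases, weight -/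
abbrev DW (κ C : Type) : Type := (κ → ℝ) × (C → ℝ) × ℝ

/-- potential, phases, slopes -/
def tri (M : Imm d ι X) (D : X → DW κ C) (p : X) : ℝ × (C → ℝ) × (C → ℝ) :=
  ((M.xt fun i q => (D q).1 i).pre.EF (fun q => (D q).2.2) p, (D p).2.1,
    gr (M.xt fun i q => (D q).1 i) (fun b q => (D q).2.1 b) p)

variable {D : X → DW κ C}

theorem sm1 (h : M.Sm D) (i : κ) : M.Sm fun q => (D q).1 i :=
  h.comp (g := fun w : DW κ C => w.1 i) (by fun_prop)


theorem sm3 (h : M.Sm D) : M.Sm fun q => (D q).2.2 :=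
  h.comp (g := fun w : DW κ C => w.2.2) (by fun_prop)

theorem tri_li {M' : Imm d ι' Y} {j : X → Y} {p : X} (h : LI M M' j p) {D' : Y → DW κ C}
    (hD : M.Sm D) (hD' : M'.Sm D') (e : D =ᶠ[𝓝 p] fun q => D' (j q)) :
    tri M D p = tri M' D' (j p) := by
  have h1 := h.xt (sm1 hD) (sm1 hD') (e.mono fun q hq i => by rw [hq])
  refine Prod.ext (h1.EF' (sm3 hD') (e.mono fun q hq => by simp only [hq])) (Prod.ext ?_ ?_)
  · exact congrArg (fun w : DW κ C => w.2.1) e.self_of_nhds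
  · funext b
    have e' : (fun q => (D q).2.1 b) =ᶠ[𝓝 p] fun q => (D' (j q)).2.1 b :=
      e.mono fun q hq => by simp only [hq]
    simp only [tri, gr, norm_grad]
    rw [h1.gam' (f' := fun q => (D' q).2.1 b) (g' := fun q => (D' q).2.1 b) e' e']

theorem sm_cyl {F : Type} [NormedAddCommGroup F] [NormedSpace ℝ F] {f : X → F} (h : M.Sm f) :
    (cyl M).Sm fun r => f r.1 := fun r =>
  (h r.1).comp contDiff_tail0.contDiffOn fun _ hq => hq

theorem tri_cyl (hD : M.Sm D) (r : X × ℝ) : tri (cyl M) (fun r => D r.1) r = tri M D r.1 := by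
  have h1 := li_cyl (sm1 hD) (fun i => sm_cyl (sm1 hD i)) r
  have h2 := h1.EF (F := fun r => (D r.1).2.2) (sm_cyl (sm3 hD))
  have h3 := cyl_EF (M.xt fun i q => (D q).1 i) (fun q => (D q).2.2) r
  refine Prod.ext (h2.symm.trans h3) (Prod.ext rfl ?_)
  funext b
  have h4 := h1.gam (fun r => (D r.1).2.1 b) fun r => (D r.1).2.1 b
  have h5 := cyl_gam (M.xt fun i q => (D q).1 i) (fun q => (D q).2.1 b) (fun q => (D q).2.1 b) r
  simp only [tri, gr, norm_grad]
  exact congrArg _ (h4.symm.trans h5)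

theorem tri_cont {Λ : Type} [TopologicalSpace Λ] {D : Λ → X → DW κ C} (hD : JC M.atl univ D) :
    Continuous fun z : Λ × X => tri M (D z.1) z.2 :=
  have h := fm_xt hD.fst
  (h.pj.EF hD.snd.snd).continuous.prodMk (hD.snd.fst.continuous.prodMk
    (continuous_pi fun b => (h.grad (hD.snd.fst.apply b)).continuous.norm))

theorem tri_lim {α : Type} {l : Filter α} {G : α → Imm d ι X}
    {e : α → OpenPartialHomeomorph X (E (Fin d))} {p : α → X} {G0 : Imm d ι Y}
    {e0 : OpenPartialHomeomorph Y (E (Fin d))} {p0 : Y} (h : PC l G e p G0 e0 p0)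
    {D : α → X → DW κ C} {D0 : Y → DW κ C} (hD : ∀ j, (G j).Sm (D j)) (hD0 : G0.Sm D0)
    (hF : F2 l e p e0 p0 D D0) :
    Tendsto (fun j => tri (G j) (D j) (p j)) l (𝓝 (tri G0 D0 p0)) := by
  have h1 : PC l (fun j => (G j).xt fun i q => (D j q).1 i) e p (G0.xt fun i q => (D0 q).1 i) e0 p0 :=
    ⟨h.ch.mono fun j hj => ⟨xt_isChart (sm1 (hD j)) hj.1, hj.2⟩, xt_isChart (sm1 hD0) h.ch0, h.mem0,
      ((h.x.prodMk hF).comp (Φ := fun z : E ι × DW κ C => cat z.1 z.2.1)
        ((contDiff_cat.comp (contDiff_fst.prodMk contDiff_snd.fst)).contDiffAt.of_le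
          (by norm_cast))).congr
        (.of_forall fun j => .of_forall fun _ => xt_x (sm1 (hD j)) _)
        (.of_forall fun _ => xt_x (sm1 hD0) _)⟩
  have h3 : F2 l e p e0 p0 (fun j q => (D j q).2.2) fun q => (D0 q).2.2 :=
    hF.comp (Φ := fun w : DW κ C => w.2.2) (by fun_prop)
  refine (h1.EF h3).prodMk_nhds
    (Tendsto.prodMk_nhds (h.val hF.c1).snd_nhds.fst_nhds (tendsto_pi_nhds.2 fun b => ?_))
  have h2 : F1 l e p e0 p0 (fun j q => (D j q).2.1 b) fun q => (D0 q).2.1 b :=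
    (hF.comp (Φ := fun w : DW κ C => w.2.1 b) (by fun_prop)).c1
  simp only [gr, norm_grad]
  exact (h1.gam h2 h2).sqrt

end Crest.Agent.N228.Gr

end
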